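import Mathlib
import Vale.Agent.Lib.P328.RP.Restricted
import Vale.Agent.Lib.P328.RP.Rows
import Vale.Agent.Lib.P328.RP.Mixing22
import Vale.Agent.Lib.P328.helper12.TwoSmallRows

/-!
P328: the Knabe argument with two rows merged into one site.

The rows `B1` and `B2` (arbitrary row sums) form one site, every other row (row sum at most
one) is a site of its own.  For a set `p` of sites, `rows B1 B2 p` is the set of rows of these
sites (the site of the block is named `B1`, the name `B2` is a void site).  The local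
projections are `1 - R (rows p)` for pairs `p` of sites.

* `four_transfer`, `crude_transfer` : transfer of the four-row block inequality and of a
  three-row gap inequality from small systems to rows of a large system.
* `block_triple` : the three-site inequality, from the four-row block inequality (block and
  two unit rows) and the three-row inequality for two small rows (three unit rows).
* `block_hgap` : the gap of the site-pair resamplings.
* `block_row_gap` : comparison with the row-pair resamplings, given a crude gap constant `K`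
  for the three-row systems made of the block and one unit row.
-/

namespace Vale.Agent.Lib.P328.RP

open Finset
open Vale.Agent.Lib.P335.Bip

namespace BlockKnabe

section general

variable {m n : ℕ} {r : Fin m → ℕ} {c : Fin n → ℕ}

/-- Resampling more rows decreases the quadratic form. -/
theorem ip_R_anti {S T : Finset (Fin m)} (h : S ⊆ T) (f : CT m n r c → ℝ) :
    ip f (R T f) ≤ ip f (R S f) := by
  have h1 : ip f (R T f) = ip (R S f) (R T (R S f)) := by
    rw [R_T_R_of_subset h, ← R_symm, R_R_of_subset h]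
  have h2 : ip (R S f) (R S f) = ip f (R S f) := by
    rw [← R_symm, R_idem]
  rw [h1, ← h2]
  exact ip_cexp_le _ (R S f)

theorem ip_PR_nonneg (p : Finset (Fin m)) (f : CT m n r c → ℝ) : 0 ≤ ip f (PR p f) := by
  rw [ip_PR]
  exact sub_nonneg.mpr (ip_cexp_le _ f)

/-- The rows of a set `p` of sites, when the rows `B1` and `B2` form one site (named `B1`; the
name `B2` is a void site). -/
def rows (B1 B2 : Fin m) (p : Finset (Fin m)) : Finset (Fin m) :=
  if B1 ∈ p then insert B2 p else p.erase B2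

theorem rows_subset_insert (B1 B2 : Fin m) (p : Finset (Fin m)) :
    rows B1 B2 p ⊆ insert B2 p := by
  unfold rows
  split_ifs
  · exact Finset.Subset.refl _
  · exact (Finset.erase_subset _ _).trans (Finset.subset_insert _ _)

theorem rows_mono (B1 B2 : Fin m) {p T : Finset (Fin m)} (h : p ⊆ T) :
    rows B1 B2 p ⊆ rows B1 B2 T := by
  unfold rows
  by_cases hp : B1 ∈ p
  · rw [if_pos hp, if_pos (h hp)]
    exact Finset.insert_subset_insert _ h
  · rw [if_neg hp]
    by_cases hT : B1 ∈ T
    · rw [if_pos hT]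
      exact (Finset.erase_subset _ _).trans (h.trans (Finset.subset_insert _ _))
    · rw [if_neg hT]
      exact Finset.erase_subset_erase _ h

theorem rows_disjoint {B1 B2 : Fin m} {p q : Finset (Fin m)} (hd : Disjoint p q) :
    Disjoint (rows B1 B2 p) (rows B1 B2 q) := by
  rw [Finset.disjoint_left] at hd ⊢
  intro i hip hiq
  unfold rows at hip hiq
  by_cases hp : B1 ∈ p
  · have hq : B1 ∉ q := hd hp
    rw [if_pos hp, Finset.mem_insert] at hip
    rw [if_neg hq, Finset.mem_erase] at hiq
    rcases hip with hip | hip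
    · exact hiq.1 hip
    · exact hd hip hiq.2
  · rw [if_neg hp, Finset.mem_erase] at hip
    by_cases hq : B1 ∈ q
    · rw [if_pos hq, Finset.mem_insert] at hiq
      rcases hiq with hiq | hiq
      · exact hip.1 hiq
      · exact hd hip.2 hiq
    · rw [if_neg hq, Finset.mem_erase] at hiq
      exact hd hip.2 hiq.2

theorem rows_erase {B1 B2 : Fin m} (hB : B1 ≠ B2) {T : Finset (Fin m)} (h2 : B2 ∈ T) :
    rows B1 B2 (T.erase B2) = rows B1 B2 T := by
  unfold rows
  by_cases h1 : B1 ∈ T
  · rw [if_pos (Finset.mem_erase.mpr ⟨hB, h1⟩), if_pos h1, Finset.insert_erase h2,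
      Finset.insert_eq_of_mem h2]
  · rw [if_neg (fun h => h1 (Finset.mem_of_mem_erase h)), if_neg h1, Finset.erase_idem]

theorem rows_of_not {B1 B2 : Fin m} {p : Finset (Fin m)} (h1 : B1 ∉ p) (h2 : B2 ∉ p) :
    rows B1 B2 p = p := by
  unfold rows
  rw [if_neg h1, Finset.erase_eq_of_notMem h2]

theorem rows_of_mem {B1 B2 : Fin m} {p : Finset (Fin m)} (h1 : B1 ∈ p) :
    rows B1 B2 p = insert B2 p := by
  unfold rows
  rw [if_pos h1]

end general

section finsets

variable {α : Type*} [DecidableEq α]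

theorem powersetCard_two_triple {x y z : α} (hxy : x ≠ y) (hxz : x ≠ z) (hyz : y ≠ z) :
    ({x, y, z} : Finset α).powersetCard 2 = {{x, y}, {x, z}, {y, z}} := by
  ext p
  simp only [Finset.mem_powersetCard, Finset.mem_insert, Finset.mem_singleton]
  constructor
  · rintro ⟨hsub, hcard⟩
    obtain ⟨u, v, huv, rfl⟩ := Finset.card_eq_two.mp hcard
    have hu : u = x ∨ u = y ∨ u = z := by
      have := hsub (Finset.mem_insert_self u {v})
      simpa using this
    have hv : v = x ∨ v = y ∨ v = z := by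
      have := hsub (Finset.mem_insert_of_mem (Finset.mem_singleton_self v))
      simpa using this
    rcases hu with hu | hu | hu <;> rcases hv with hv | hv | hv <;> subst hu <;> subst hv
    · exact absurd rfl huv
    · exact Or.inl rfl
    · exact Or.inr (Or.inl rfl)
    · exact Or.inl (Finset.pair_comm _ _)
    · exact absurd rfl huv
    · exact Or.inr (Or.inr rfl)
    · exact Or.inr (Or.inl (Finset.pair_comm _ _))
    · exact Or.inr (Or.inr (Finset.pair_comm _ _))
    · exact absurd rfl huv
  · rintro (rfl | rfl | rfl)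
    · refine ⟨?_, Finset.card_pair hxy⟩
      intro w hw
      simp only [Finset.mem_insert, Finset.mem_singleton] at hw ⊢
      tauto
    · refine ⟨?_, Finset.card_pair hxz⟩
      intro w hw
      simp only [Finset.mem_insert, Finset.mem_singleton] at hw ⊢
      tauto
    · refine ⟨?_, Finset.card_pair hyz⟩
      intro w hw
      simp only [Finset.mem_insert, Finset.mem_singleton] at hw ⊢
      tauto

theorem pair_ne_of_notMem {u v w t : α} (h : u ≠ w) (h' : u ≠ t) :
    ({u, v} : Finset α) ≠ {w, t} := by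
  intro he
  have hm : u ∈ ({w, t} : Finset α) := by
    rw [← he]
    exact Finset.mem_insert_self u {v}
  rw [Finset.mem_insert, Finset.mem_singleton] at hm
  rcases hm with hm | hm
  · exact h hm
  · exact h' hm

theorem sum_pairs_triple {x y z : α} (hxy : x ≠ y) (hxz : x ≠ z) (hyz : y ≠ z)
    (F : Finset α → ℝ) :
    ∑ p ∈ ({x, y, z} : Finset α).powersetCard 2, F p = F {x, y} + F {x, z} + F {y, z} := by
  have h1 : ({x, y} : Finset α) ≠ {x, z} := by
    rw [Finset.pair_comm x y, Finset.pair_comm x z]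
    exact pair_ne_of_notMem hyz (Ne.symm hxy)
  have h2 : ({x, y} : Finset α) ≠ {y, z} := pair_ne_of_notMem hxy hxz
  have h3 : ({x, z} : Finset α) ≠ {y, z} := pair_ne_of_notMem hxy hxz
  rw [powersetCard_two_triple hxy hxz hyz, Finset.sum_insert, Finset.sum_insert,
    Finset.sum_singleton]
  · ring
  · rw [Finset.mem_singleton]
    exact h3
  · rw [Finset.mem_insert, Finset.mem_singleton]
    push Not
    exact ⟨h1, h2⟩

end finsets

section inj

variable {β : Type*}

theorem inj_three {x0 x1 x2 : β} (h01 : x0 ≠ x1) (h02 : x0 ≠ x2) (h12 : x1 ≠ x2) :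
    Function.Injective ![x0, x1, x2] := by
  intro i j hij
  fin_cases i <;> fin_cases j <;> simp_all

theorem inj_four {x0 x1 x2 x3 : β} (h01 : x0 ≠ x1) (h02 : x0 ≠ x2) (h03 : x0 ≠ x3)
    (h12 : x1 ≠ x2) (h13 : x1 ≠ x3) (h23 : x2 ≠ x3) :
    Function.Injective ![x0, x1, x2, x3] := by
  intro i j hij
  fin_cases i <;> fin_cases j <;> simp_all

end inj

section transfer

variable {m n : ℕ} {r : Fin m → ℕ}

/-- The four-row block inequality (rows `0, 1` form the block, rows `2, 3` are single sites),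
transferred to the rows `φ 0, φ 1, φ 2, φ 3` of a larger system. -/
theorem four_transfer (φ : Fin 4 ↪ Fin m)
    (h4 : ∀ (c' : Fin n → ℕ) (g : CT 4 n (r ∘ φ) c' → ℝ),
      ip g (R {0, 1, 2} g) + ip g (R {0, 1, 3} g) + ip g (R {2, 3} g)
        ≤ 2 * ip g g + ip g (R univ g))
    {c : Fin n → ℕ} (f : CT m n r c → ℝ) :
    ip f (R (({0, 1, 2} : Finset (Fin 4)).map φ) f)
        + ip f (R (({0, 1, 3} : Finset (Fin 4)).map φ) f)
        + ip f (R (({2, 3} : Finset (Fin 4)).map φ) f)
      ≤ 2 * ip f f + ip f (R ((univ : Finset (Fin 4)).map φ) f) := by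
  classical
  set a : Fin 4 → ℝ := ![1, 1, 1, -1] with ha
  set P : Fin 4 → Finset (Fin 4) := ![{0, 1, 2}, {0, 1, 3}, {2, 3}, univ] with hP
  have h : ∀ (c' : Fin n → ℕ) (g : CT 4 n (r ∘ φ) c' → ℝ),
      ∑ α ∈ (univ : Finset (Fin 4)), a α * ip g (E (P α) (univ : Finset (Fin n)) g)
        ≤ 2 * ip g g := by
    intro c' g
    have h' := h4 c' g
    rw [Fin.sum_univ_four]
    simp only [ha, hP, Matrix.cons_val_zero, Matrix.cons_val_one, Matrix.cons_val_two,
      Matrix.cons_val_three, Matrix.tail_cons, Matrix.head_cons, E_univ_right]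
    linarith
  have key := block_transfer_on (univ : Finset (Fin 4)) a P
    (fun _ => (univ : Finset (Fin n))) 2 φ h f
  rw [Fin.sum_univ_four] at key
  simp only [ha, hP, Matrix.cons_val_zero, Matrix.cons_val_one, Matrix.cons_val_two,
    Matrix.cons_val_three, Matrix.tail_cons, Matrix.head_cons, E_univ_right] at key
  linarith

/-- A gap inequality with constant `K` for three-row systems, transferred to the rows
`φ 0, φ 1, φ 2` of a larger system. -/
theorem crude_transfer (φ : Fin 3 ↪ Fin m) (K : ℝ)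
    (hD : ∀ (c' : Fin n → ℕ) (g : CT 3 n (r ∘ φ) c' → ℝ),
      ip g g - ip g (R univ g)
        ≤ K * ∑ q ∈ (univ : Finset (Fin 3)).powersetCard 2, (ip g g - ip g (R q g)))
    {c : Fin n → ℕ} (f : CT m n r c → ℝ) :
    ip f f - ip f (R ((univ : Finset (Fin 3)).map φ) f)
      ≤ K * ∑ p ∈ ((univ : Finset (Fin 3)).map φ).powersetCard 2,
          (ip f f - ip f (R p f)) := by
  classical
  set s : Finset (Option (Finset (Fin 3))) :=
    insertNone ((univ : Finset (Fin 3)).powersetCard 2) with hs
  set a : Option (Finset (Fin 3)) → ℝ := fun o => if o = none then -1 else K with ha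
  set P : Option (Finset (Fin 3)) → Finset (Fin 3) := fun o => o.getD univ with hP
  have hcard : (((univ : Finset (Fin 3)).powersetCard 2).card : ℝ) = 3 := by
    rw [Finset.card_powersetCard, Finset.card_univ, Fintype.card_fin]
    norm_num
  have h : ∀ (c' : Fin n → ℕ) (g : CT 3 n (r ∘ φ) c' → ℝ),
      ∑ α ∈ s, a α * ip g (E (P α) (univ : Finset (Fin n)) g) ≤ (3 * K - 1) * ip g g := by
    intro c' g
    have h' := hD c' g
    rw [Finset.sum_sub_distrib, Finset.sum_const, nsmul_eq_mul, hcard] at h'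
    rw [hs, Finset.sum_insertNone]
    simp only [ha, hP, Option.getD_none, Option.getD_some, if_true, reduceCtorEq, if_false,
      E_univ_right]
    rw [← Finset.mul_sum]
    linarith
  have key := block_transfer_on s a P (fun _ => (univ : Finset (Fin n))) (3 * K - 1) φ h f
  rw [hs, Finset.sum_insertNone] at key
  simp only [ha, hP, Option.getD_none, Option.getD_some, if_true, reduceCtorEq, if_false,
    E_univ_right] at key
  rw [← Finset.mul_sum] at key
  rw [powersetCard_map, Finset.sum_map]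
  simp only [RelEmbedding.coe_toEmbedding, mapEmbedding_apply]
  rw [Finset.sum_sub_distrib, Finset.sum_const, nsmul_eq_mul, hcard]
  linarith

end transfer


section block

variable {m n : ℕ} {r : Fin m → ℕ} {c : Fin n → ℕ}

/-- **The three-site inequality.**  For three sites `T` (the block `{B1, B2}` counted as one
site), resampling all rows of `T` is dominated by the three resamplings of two sites. -/
theorem block_triple (B1 B2 : Fin m) (hB : B1 ≠ B2)
    (hunit : ∀ i, i ≠ B1 → i ≠ B2 → r i ≤ 1)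
    (h4 : ∀ φ : Fin 4 ↪ Fin m, r (φ 2) ≤ 1 → r (φ 3) ≤ 1 →
      ∀ (c' : Fin n → ℕ) (g : CT 4 n (r ∘ φ) c' → ℝ),
        ip g (R {0, 1, 2} g) + ip g (R {0, 1, 3} g) + ip g (R {2, 3} g)
          ≤ 2 * ip g g + ip g (R univ g))
    (T : Finset (Fin m)) (hT : T.card = 3) (f : CT m n r c → ℝ) :
    ip f f - ip f (R (rows B1 B2 T) f)
      ≤ ∑ p ∈ T.powersetCard 2, ip f (PR (rows B1 B2 p) f) := by
  classical
  by_cases h2 : B2 ∈ T
  · have hmem : T.erase B2 ∈ T.powersetCard 2 := by
      rw [Finset.mem_powersetCard]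
      refine ⟨Finset.erase_subset _ _, ?_⟩
      rw [Finset.card_erase_of_mem h2, hT]
    have hle := Finset.single_le_sum (f := fun p => ip f (PR (rows B1 B2 p) f))
      (fun p _ => ip_PR_nonneg (rows B1 B2 p) f) hmem
    rw [ip_PR, rows_erase hB h2] at hle
    exact hle
  by_cases h1 : B1 ∈ T
  · obtain ⟨a, b, hab, hTe⟩ := Finset.card_eq_two.mp
      (show (T.erase B1).card = 2 by rw [Finset.card_erase_of_mem h1, hT])
    have hTeq : T = {B1, a, b} := by rw [← hTe, Finset.insert_erase h1]
    have haT : a ∈ T.erase B1 := by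
      rw [hTe]
      exact Finset.mem_insert_self a {b}
    have hbT : b ∈ T.erase B1 := by
      rw [hTe]
      exact Finset.mem_insert_of_mem (Finset.mem_singleton_self b)
    have ha1 : a ≠ B1 := (Finset.mem_erase.mp haT).1
    have hb1 : b ≠ B1 := (Finset.mem_erase.mp hbT).1
    have ha2 : a ≠ B2 := fun h => h2 (h ▸ (Finset.mem_erase.mp haT).2)
    have hb2 : b ≠ B2 := fun h => h2 (h ▸ (Finset.mem_erase.mp hbT).2)
    set φ : Fin 4 ↪ Fin m := ⟨![B1, B2, a, b],
      inj_four hB (Ne.symm ha1) (Ne.symm hb1) (Ne.symm ha2) (Ne.symm hb2) hab⟩ with hφ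
    have key := four_transfer φ (h4 φ (hunit a ha1 ha2) (hunit b hb1 hb2)) f
    have e1 : ({0, 1, 2} : Finset (Fin 4)).map φ = rows B1 B2 {B1, a} := by
      rw [rows_of_mem (Finset.mem_insert_self B1 {a})]
      ext i
      simp [hφ]
      tauto
    have e2 : ({0, 1, 3} : Finset (Fin 4)).map φ = rows B1 B2 {B1, b} := by
      rw [rows_of_mem (Finset.mem_insert_self B1 {b})]
      ext i
      simp [hφ]
      tauto
    have e3 : ({2, 3} : Finset (Fin 4)).map φ = rows B1 B2 {a, b} := by
      have n1 : B1 ∉ ({a, b} : Finset (Fin m)) := by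
        rw [Finset.mem_insert, Finset.mem_singleton]
        push Not
        exact ⟨Ne.symm ha1, Ne.symm hb1⟩
      have n2 : B2 ∉ ({a, b} : Finset (Fin m)) := by
        rw [Finset.mem_insert, Finset.mem_singleton]
        push Not
        exact ⟨Ne.symm ha2, Ne.symm hb2⟩
      rw [rows_of_not n1 n2]
      ext i
      simp [hφ]
    have e4 : (univ : Finset (Fin 4)).map φ = rows B1 B2 T := by
      rw [rows_of_mem h1, hTeq]
      have hu : (univ : Finset (Fin 4)) = {0, 1, 2, 3} := by decide
      rw [hu]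
      ext i
      simp [hφ]
      tauto
    rw [e1, e2, e3, e4] at key
    rw [hTeq, sum_pairs_triple (Ne.symm ha1) (Ne.symm hb1) hab, ip_PR, ip_PR, ip_PR, ← hTeq]
    linarith
  · obtain ⟨φ, rfl⟩ : ∃ φ : Fin 3 ↪ Fin m, (univ : Finset (Fin 3)).map φ = T :=
      ⟨(T.orderEmbOfFin hT).toEmbedding, map_orderEmbOfFin_univ T hT⟩
    have hmemφ : ∀ i, φ i ∈ (univ : Finset (Fin 3)).map φ :=
      fun i => Finset.mem_map_of_mem φ (Finset.mem_univ i)
    have hu : ∀ i, (r ∘ φ) i ≤ 1 := fun i =>
      hunit (φ i) (fun h => h1 (h ▸ hmemφ i)) (fun h => h2 (h ▸ hmemφ i))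
    have h3 : ∀ (c' : Fin n → ℕ) (g : CT 3 n (r ∘ φ) c' → ℝ),
        ∑ q ∈ (univ : Finset (Fin 3)).powersetCard 2, ip g (R q g)
          ≤ 2 * ip g g + ip g (R univ g) :=
      fun c' g => threeRow_of_rows (r ∘ φ) c'
        (fun g' hg' => threeRow_rows_of_two_small (r ∘ φ) c' 0 1 (by decide) (hu 0) (hu 1)
          g' hg') g
    have key := triple_of_threeRow_E_on φ h3 f
    rw [rows_of_not h1 h2]
    have hrow : ∀ p ∈ ((univ : Finset (Fin 3)).map φ).powersetCard 2,
        ip f (PR (rows B1 B2 p) f) = ip f f - ip f (R p f) := by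
      intro p hp
      have hsub := (Finset.mem_powersetCard.mp hp).1
      rw [rows_of_not (fun h => h1 (hsub h)) (fun h => h2 (hsub h)), ip_PR]
    rw [Finset.sum_congr rfl hrow, Finset.sum_sub_distrib, Finset.sum_const,
      Finset.card_powersetCard, Finset.card_map, Finset.card_univ, Fintype.card_fin,
      nsmul_eq_mul]
    norm_num
    linarith

/-- Every pair of rows lies in the rows of a pair of sites. -/
theorem exists_pair_cover (B1 B2 : Fin m) (q : Finset (Fin m)) (hq : q.card = 2) :
    ∃ p : Finset (Fin m), p.card = 2 ∧ q ⊆ rows B1 B2 p := by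
  classical
  by_cases h1 : B1 ∈ q
  · refine ⟨q, hq, ?_⟩
    rw [rows_of_mem h1]
    exact Finset.subset_insert _ _
  by_cases h2 : B2 ∈ q
  · refine ⟨insert B1 (q.erase B2), ?_, ?_⟩
    · rw [Finset.card_insert_of_notMem (fun h => h1 (Finset.mem_of_mem_erase h)),
        Finset.card_erase_of_mem h2, hq]
    · rw [rows_of_mem (Finset.mem_insert_self _ _)]
      intro i hi
      by_cases hi2 : i = B2
      · rw [hi2]
        exact Finset.mem_insert_self _ _
      · exact Finset.mem_insert_of_mem (Finset.mem_insert_of_mem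
          (Finset.mem_erase.mpr ⟨hi2, hi⟩))
  · refine ⟨q, hq, ?_⟩
    rw [rows_of_not h1 h2]

/-- **Block gap.**  With the rows `B1`, `B2` merged into one site and all other row sums at
most one, the variance is dominated by the resamplings of the pairs of sites. -/
theorem block_hgap (B1 B2 : Fin m) (hB : B1 ≠ B2)
    (hunit : ∀ i, i ≠ B1 → i ≠ B2 → r i ≤ 1)
    (h4 : ∀ φ : Fin 4 ↪ Fin m, r (φ 2) ≤ 1 → r (φ 3) ≤ 1 →
      ∀ (c' : Fin n → ℕ) (g : CT 4 n (r ∘ φ) c' → ℝ),
        ip g (R {0, 1, 2} g) + ip g (R {0, 1, 3} g) + ip g (R {2, 3} g)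
          ≤ 2 * ip g g + ip g (R univ g))
    (f : CT m n r c → ℝ) :
    ip f f - ip f (R univ f)
      ≤ ∑ p ∈ (univ : Finset (Fin m)).powersetCard 2,
          (ip f f - ip f (R (rows B1 B2 p) f)) := by
  classical
  set H : (CT m n r c → ℝ) →ₗ[ℝ] (CT m n r c → ℝ) :=
    ∑ p ∈ (univ : Finset (Fin m)).powersetCard 2, PR (rows B1 B2 p) with hH
  have hHapp : ∀ g, H g = ∑ p ∈ (univ : Finset (Fin m)).powersetCard 2,
      PR (rows B1 B2 p) g := by
    intro g
    rw [hH, LinearMap.sum_apply]
  have hform : ∀ g, ip g (H g)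
      = ∑ p ∈ (univ : Finset (Fin m)).powersetCard 2,
          (ip g g - ip g (R (rows B1 B2 p) g)) := by
    intro g
    rw [hHapp, ip_sum_right]
    exact Finset.sum_congr rfl (fun p _ => ip_PR _ g)
  have hsq : ∀ g, ip g (H g) ≤ ip (H g) (H g) := by
    intro g
    rw [hHapp]
    refine knabe (fun p => PR (rows B1 B2 p)) (fun T => R (rows B1 B2 T))
      (fun p _ => PR_symm _) (fun p _ => PR_idem _)
      (fun p q _ _ hd => PR_comm _ _ (rows_disjoint hd)) (fun T _ => R_symm _)
      (fun T _ => R_idem _) ?_ ?_ g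
    · intro T _ p hp g'
      exact PR_R_of_subset (rows_mono B1 B2 (Finset.mem_powersetCard.mp hp).1) g'
    · intro T hT g'
      exact block_triple B1 B2 hB hunit h4 T hT g'
  have hker : ∀ g, H g = 0 → R univ g = g := by
    intro g hg
    have h0 : ip g (H g) = 0 := by rw [hg, ip_zero_right]
    rw [hform] at h0
    have hterm : ∀ p ∈ (univ : Finset (Fin m)).powersetCard 2,
        ip g g - ip g (R (rows B1 B2 p) g) = 0 := by
      have hnn : ∀ p ∈ (univ : Finset (Fin m)).powersetCard 2,
          0 ≤ ip g g - ip g (R (rows B1 B2 p) g) :=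
        fun p _ => sub_nonneg.mpr (ip_cexp_le _ g)
      exact (Finset.sum_eq_zero_iff_of_nonneg hnn).mp h0
    have hfix : ∀ q : Finset (Fin m), q.card = 2 → R q g = g := by
      intro q hq
      obtain ⟨p, hp, hqp⟩ := exists_pair_cover B1 B2 q hq
      have h1 := hterm p (Finset.mem_powersetCard.mpr ⟨Finset.subset_univ _, hp⟩)
      have h1' := ip_R_anti hqp g
      have h1'' : ip g (R q g) ≤ ip g g := ip_cexp_le _ g
      have h2 : ip (g - R q g) (g - R q g) = 0 := by
        have e : ip (g - R q g) (g - R q g) = ip g g - ip g (R q g) := ip_sub_cexp _ g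
        rw [e]
        linarith
      have h3' := ip_self_eq_zero.mp h2
      exact (sub_eq_zero.mp h3').symm
    exact cexp_of_factor _ (fun x y _ => const_of_fixed g hfix x y)
  have key := gap_of_sq H (R univ)
    (by
      intro g h
      rw [hHapp, hHapp, ip_sum_right, ip_sum_left]
      exact Finset.sum_congr rfl (fun p _ => PR_symm _ g h))
    (R_symm univ)
    (by
      intro g
      rw [hHapp]
      refine Finset.sum_eq_zero (fun p _ => ?_)
      have e : rows B1 B2 p ⊆ (univ : Finset (Fin m)) := Finset.subset_univ _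
      exact PR_R_of_subset e g)
    (by
      intro g
      rw [hform]
      exact Finset.sum_nonneg (fun p _ => sub_nonneg.mpr (ip_cexp_le _ g)))
    hsq hker f
  rw [hform] at key
  exact key

end block

section compare

variable {m n : ℕ} {r : Fin m → ℕ} {c : Fin n → ℕ}

/-- A given row lies in at most `m - 1` pairs of rows. -/
theorem card_pairs_mem_le (a : Fin m) :
    (((univ : Finset (Fin m)).powersetCard 2).filter (fun p => a ∈ p)).card ≤ m - 1 := by
  classical
  have hsub : ((univ : Finset (Fin m)).powersetCard 2).filter (fun p => a ∈ p)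
      ⊆ ((univ : Finset (Fin m)).erase a).image (fun b => ({a, b} : Finset (Fin m))) := by
    intro p hp
    rw [Finset.mem_filter, Finset.mem_powersetCard] at hp
    obtain ⟨⟨_, hcard⟩, hap⟩ := hp
    obtain ⟨b, hb⟩ := Finset.card_eq_one.mp
      (show (p.erase a).card = 1 by rw [Finset.card_erase_of_mem hap, hcard])
    have hbp : b ∈ p.erase a := by
      rw [hb]
      exact Finset.mem_singleton_self b
    rw [Finset.mem_image]
    refine ⟨b, Finset.mem_erase.mpr ⟨(Finset.mem_erase.mp hbp).1, Finset.mem_univ b⟩, ?_⟩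
    rw [← hb, Finset.insert_erase hap]
  calc (((univ : Finset (Fin m)).powersetCard 2).filter (fun p => a ∈ p)).card
      ≤ (((univ : Finset (Fin m)).erase a).image
          (fun b => ({a, b} : Finset (Fin m)))).card := Finset.card_le_card hsub
    _ ≤ ((univ : Finset (Fin m)).erase a).card := Finset.card_image_le
    _ = m - 1 := by
        rw [Finset.card_erase_of_mem (Finset.mem_univ a), Finset.card_univ, Fintype.card_fin]

theorem two_le_of_ne {B1 B2 : Fin m} (hB : B1 ≠ B2) : 2 ≤ m := by
  by_contra h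
  push Not at h
  apply hB
  apply Fin.ext
  have h1 := B1.isLt
  have h2 := B2.isLt
  omega

/-- **Comparison with the row pairs.**  If moreover every three-row system made of the block
and one more row has a gap constant `K` with respect to its three row pairs, the variance is
at most `K (m - 1)` times the sum over all pairs of rows. -/
theorem block_row_gap (B1 B2 : Fin m) (hB : B1 ≠ B2)
    (hunit : ∀ i, i ≠ B1 → i ≠ B2 → r i ≤ 1)
    (h4 : ∀ φ : Fin 4 ↪ Fin m, r (φ 2) ≤ 1 → r (φ 3) ≤ 1 →
      ∀ (c' : Fin n → ℕ) (g : CT 4 n (r ∘ φ) c' → ℝ),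
        ip g (R {0, 1, 2} g) + ip g (R {0, 1, 3} g) + ip g (R {2, 3} g)
          ≤ 2 * ip g g + ip g (R univ g))
    (K : ℝ) (hK : 1 ≤ K)
    (hD : ∀ φ : Fin 3 ↪ Fin m, r (φ 2) ≤ 1 →
      ∀ (c' : Fin n → ℕ) (g : CT 3 n (r ∘ φ) c' → ℝ),
        ip g g - ip g (R univ g)
          ≤ K * ∑ q ∈ (univ : Finset (Fin 3)).powersetCard 2, (ip g g - ip g (R q g)))
    (f : CT m n r c → ℝ) :
    ip f f - ip f (R univ f)
      ≤ K * ((m : ℝ) - 1) *
        ∑ q ∈ (univ : Finset (Fin m)).powersetCard 2, (ip f f - ip f (R q f)) := by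
  classical
  have h0 := block_hgap B1 B2 hB hunit h4 f
  set PP : Finset (Finset (Fin m)) := (univ : Finset (Fin m)).powersetCard 2 with hPP
  set X : Finset (Fin m) → ℝ := fun q => ip f f - ip f (R q f) with hX
  have hX0 : ∀ q, 0 ≤ X q := fun q => sub_nonneg.mpr (ip_cexp_le _ f)
  have hXmono : ∀ S T : Finset (Fin m), S ⊆ T → X S ≤ X T := by
    intro S T h
    have h' := ip_R_anti h f
    simp only [hX]
    linarith
  have hK0 : 0 ≤ K := by linarith
  -- every site pair is dominated by the row pairs inside `insert B2 p`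
  have step1 : ∀ p ∈ PP, X (rows B1 B2 p)
      ≤ K * ∑ q ∈ PP.filter (fun q => q ⊆ insert B2 p), X q := by
    intro p hp
    have hpc : p.card = 2 := (Finset.mem_powersetCard.mp hp).2
    by_cases hcase : B1 ∈ p ∧ B2 ∉ p
    · obtain ⟨h1, h2⟩ := hcase
      obtain ⟨a, ha⟩ := Finset.card_eq_one.mp
        (show (p.erase B1).card = 1 by rw [Finset.card_erase_of_mem h1, hpc])
      have hap : a ∈ p.erase B1 := by
        rw [ha]
        exact Finset.mem_singleton_self a
      have ha1 : a ≠ B1 := (Finset.mem_erase.mp hap).1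
      have ha2 : a ≠ B2 := fun h => h2 (h ▸ (Finset.mem_erase.mp hap).2)
      have hpeq : p = {B1, a} := by rw [← ha, Finset.insert_erase h1]
      set φ : Fin 3 ↪ Fin m := ⟨![B1, B2, a], inj_three hB (Ne.symm ha1) (Ne.symm ha2)⟩
        with hφ
      have key := crude_transfer φ K (hD φ (hunit a ha1 ha2)) f
      have e : (univ : Finset (Fin 3)).map φ = insert B2 p := by
        rw [hpeq]
        have hu : (univ : Finset (Fin 3)) = {0, 1, 2} := by decide
        rw [hu]
        ext i
        simp [hφ]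
        tauto
      rw [e] at key
      rw [rows_of_mem h1]
      have hsub : (insert B2 p).powersetCard 2 ⊆ PP.filter (fun q => q ⊆ insert B2 p) := by
        intro q hq
        rw [Finset.mem_powersetCard] at hq
        rw [Finset.mem_filter, hPP, Finset.mem_powersetCard]
        exact ⟨⟨Finset.subset_univ _, hq.2⟩, hq.1⟩
      have hle : ∑ q ∈ (insert B2 p).powersetCard 2, X q
          ≤ ∑ q ∈ PP.filter (fun q => q ⊆ insert B2 p), X q :=
        Finset.sum_le_sum_of_subset_of_nonneg hsub (fun q _ _ => hX0 q)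
      calc X (insert B2 p) ≤ K * ∑ q ∈ (insert B2 p).powersetCard 2, X q := key
        _ ≤ K * ∑ q ∈ PP.filter (fun q => q ⊆ insert B2 p), X q :=
          mul_le_mul_of_nonneg_left hle hK0
    · have hrp : rows B1 B2 p ⊆ p := by
        unfold rows
        by_cases h1 : B1 ∈ p
        · have h2 : B2 ∈ p := by
            by_contra h2
            exact hcase ⟨h1, h2⟩
          rw [if_pos h1, Finset.insert_eq_of_mem h2]
        · rw [if_neg h1]
          exact Finset.erase_subset _ _
      have hmem : p ∈ PP.filter (fun q => q ⊆ insert B2 p) :=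
        Finset.mem_filter.mpr ⟨hp, Finset.subset_insert _ _⟩
      have h1 : X p ≤ ∑ q ∈ PP.filter (fun q => q ⊆ insert B2 p), X q :=
        Finset.single_le_sum (fun q _ => hX0 q) hmem
      have h2 : X (rows B1 B2 p) ≤ X p := hXmono _ _ hrp
      have h3 : 0 ≤ ∑ q ∈ PP.filter (fun q => q ⊆ insert B2 p), X q :=
        Finset.sum_nonneg (fun q _ => hX0 q)
      nlinarith
  -- every row pair is used by at most `m - 1` site pairs
  have step2 : ∑ p ∈ PP, ∑ q ∈ PP.filter (fun q => q ⊆ insert B2 p), X q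
      ≤ ((m : ℝ) - 1) * ∑ q ∈ PP, X q := by
    have e1 : ∑ p ∈ PP, ∑ q ∈ PP.filter (fun q => q ⊆ insert B2 p), X q
        = ∑ q ∈ PP, ∑ p ∈ PP.filter (fun p => q ⊆ insert B2 p), X q := by
      simp only [Finset.sum_filter]
      exact Finset.sum_comm
    rw [e1, Finset.mul_sum]
    refine Finset.sum_le_sum (fun q hq => ?_)
    rw [Finset.sum_const, nsmul_eq_mul]
    have hqc : q.card = 2 := (Finset.mem_powersetCard.mp hq).2
    obtain ⟨a, haq, ha2⟩ : ∃ a ∈ q, a ≠ B2 := by
      by_contra hcon
      push Not at hcon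
      have hs : q ⊆ {B2} := fun i hi => Finset.mem_singleton.mpr (hcon i hi)
      have hc := Finset.card_le_card hs
      rw [hqc, Finset.card_singleton] at hc
      omega
    have hsub : PP.filter (fun p => q ⊆ insert B2 p) ⊆ PP.filter (fun p => a ∈ p) := by
      intro p hp
      rw [Finset.mem_filter] at hp ⊢
      refine ⟨hp.1, ?_⟩
      have hmem := hp.2 haq
      rw [Finset.mem_insert] at hmem
      rcases hmem with h | h
      · exact absurd h ha2
      · exact h
    have hcard : ((PP.filter (fun p => q ⊆ insert B2 p)).card : ℝ) ≤ (m : ℝ) - 1 := by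
      have h1 := (Finset.card_le_card hsub).trans (card_pairs_mem_le a)
      have hm1 : 1 ≤ m := by
        have := a.isLt
        omega
      have hc : ((m - 1 : ℕ) : ℝ) = (m : ℝ) - 1 := by
        rw [Nat.cast_sub hm1]
        simp
      rw [← hc]
      exact_mod_cast h1
    exact mul_le_mul_of_nonneg_right hcard (hX0 q)
  calc ip f f - ip f (R univ f) ≤ ∑ p ∈ PP, X (rows B1 B2 p) := h0
    _ ≤ ∑ p ∈ PP, K * ∑ q ∈ PP.filter (fun q => q ⊆ insert B2 p), X q :=
      Finset.sum_le_sum step1
    _ = K * ∑ p ∈ PP, ∑ q ∈ PP.filter (fun q => q ⊆ insert B2 p), X q := by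
      rw [Finset.mul_sum]
    _ ≤ K * (((m : ℝ) - 1) * ∑ q ∈ PP, X q) := mul_le_mul_of_nonneg_left step2 hK0
    _ = K * ((m : ℝ) - 1) * ∑ q ∈ PP, X q := by ring

end compare

end BlockKnabe

open BlockKnabe in
/-- The gap of the heat bath on two-by-two blocks when all rows but two have sum at most one,
given the four-row block inequality and a crude gap constant `K` for the three-row systems
made of the two exceptional rows and one more row. -/
theorem gap22_block_of {m n : ℕ} (r : Fin m → ℕ) (B1 B2 : Fin m) (hB : B1 ≠ B2)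
    (hunit : ∀ i, i ≠ B1 → i ≠ B2 → r i ≤ 1)
    (h4 : ∀ φ : Fin 4 ↪ Fin m, r (φ 2) ≤ 1 → r (φ 3) ≤ 1 →
      ∀ (c' : Fin n → ℕ) (g : CT 4 n (r ∘ φ) c' → ℝ),
        ip g (R {0, 1, 2} g) + ip g (R {0, 1, 3} g) + ip g (R {2, 3} g)
          ≤ 2 * ip g g + ip g (R univ g))
    (K : ℝ) (hK : 1 ≤ K)
    (hD : ∀ φ : Fin 3 ↪ Fin m, r (φ 2) ≤ 1 →
      ∀ (c' : Fin n → ℕ) (g : CT 3 n (r ∘ φ) c' → ℝ),
        ip g g - ip g (R univ g)
          ≤ K * ∑ q ∈ (univ : Finset (Fin 3)).powersetCard 2, (ip g g - ip g (R q g)))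
    (c : Fin n → ℕ) (f : CT m n r c → ℝ) :
    1 / (K * ((m : ℝ) - 1)) * (ip f f - ip f (R univ f))
      ≤ ∑ p ∈ (univ : Finset (Fin m)).powersetCard 2,
          ∑ q ∈ (univ : Finset (Fin n)).powersetCard 2, (ip f f - ip f (E p q f)) := by
  have hm : 2 ≤ m := two_le_of_ne hB
  have hm' : (1 : ℝ) ≤ (m : ℝ) - 1 := by
    have : (2 : ℝ) ≤ (m : ℝ) := by exact_mod_cast hm
    linarith
  have hpos : 0 < K * ((m : ℝ) - 1) := by nlinarith
  have h1 := block_row_gap B1 B2 hB hunit h4 K hK hD f
  have h2 : ∑ p ∈ (univ : Finset (Fin m)).powersetCard 2, (ip f f - ip f (R p f))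
      ≤ ∑ p ∈ (univ : Finset (Fin m)).powersetCard 2,
          ∑ q ∈ (univ : Finset (Fin n)).powersetCard 2, (ip f f - ip f (E p q f)) :=
    Finset.sum_le_sum (fun p hp => pair_block_gap p (Finset.mem_powersetCard.mp hp).2 f)
  rw [one_div, inv_mul_le_iff₀ hpos]
  calc ip f f - ip f (R univ f)
      ≤ K * ((m : ℝ) - 1) *
        ∑ q ∈ (univ : Finset (Fin m)).powersetCard 2, (ip f f - ip f (R q f)) := h1
    _ ≤ K * ((m : ℝ) - 1) * ∑ p ∈ (univ : Finset (Fin m)).powersetCard 2,
          ∑ q ∈ (univ : Finset (Fin n)).powersetCard 2, (ip f f - ip f (E p q f)) :=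
      mul_le_mul_of_nonneg_left h2 hpos.le

open BlockKnabe in
/-- The heat bath on two-by-two blocks mixes in
`m ^ 2 n ^ 2 K (m - 1) (m n log (N + 1) + log (1 / ε))` steps when all rows but two have sum
at most one, given the four-row block inequality and a crude gap constant `K` for the
three-row systems made of the two exceptional rows and one more row. -/
theorem mixing22_block_of {m n : ℕ} (hn : 2 ≤ n) (r : Fin m → ℕ) (B1 B2 : Fin m)
    (hB : B1 ≠ B2) (hunit : ∀ i, i ≠ B1 → i ≠ B2 → r i ≤ 1)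
    (h4 : ∀ φ : Fin 4 ↪ Fin m, r (φ 2) ≤ 1 → r (φ 3) ≤ 1 →
      ∀ (c' : Fin n → ℕ) (g : CT 4 n (r ∘ φ) c' → ℝ),
        ip g (R {0, 1, 2} g) + ip g (R {0, 1, 3} g) + ip g (R {2, 3} g)
          ≤ 2 * ip g g + ip g (R univ g))
    (K : ℝ) (hK : 1 ≤ K)
    (hD : ∀ φ : Fin 3 ↪ Fin m, r (φ 2) ≤ 1 →
      ∀ (c' : Fin n → ℕ) (g : CT 3 n (r ∘ φ) c' → ℝ),
        ip g g - ip g (R univ g)
          ≤ K * ∑ q ∈ (univ : Finset (Fin 3)).powersetCard 2, (ip g g - ip g (R q g)))
    (c : Fin n → ℕ) (x : CT m n r c) (ε : ℝ) (hε : 0 < ε) (hε1 : ε ≤ 1) (t : ℕ)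
    (ht : (m : ℝ) ^ 2 * (n : ℝ) ^ 2 * (K * ((m : ℝ) - 1)) *
      (m * n * Real.log (((∑ i, r i : ℕ) : ℝ) + 1) + Real.log (1 / ε)) ≤ t) :
    (1 / 2) * ∑ y, |(heatBath22 m n r c ^ t) x y - 1 / (Fintype.card (CT m n r c) : ℝ)| ≤ ε := by
  have hm : 2 ≤ m := two_le_of_ne hB
  have hm' : (1 : ℝ) ≤ (m : ℝ) - 1 := by
    have : (2 : ℝ) ≤ (m : ℝ) := by exact_mod_cast hm
    linarith
  have hpos : 0 < K * ((m : ℝ) - 1) := by nlinarith
  have hge : 1 ≤ K * ((m : ℝ) - 1) := by nlinarith
  refine mixing22_of_gap hm hn r c (1 / (K * ((m : ℝ) - 1))) (by positivity) ?_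
    (fun f => gap22_block_of r B1 B2 hB hunit h4 K hK hD c f) x ε hε hε1 t ?_
  · rw [div_le_one hpos]
    exact hge
  · have e : (m : ℝ) ^ 2 * (n : ℝ) ^ 2 / (1 / (K * ((m : ℝ) - 1)))
        = (m : ℝ) ^ 2 * (n : ℝ) ^ 2 * (K * ((m : ℝ) - 1)) := by
      rw [div_div_eq_mul_div, div_one]
    rw [e]
    exact ht

end Vale.Agent.Lib.P328.RP
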